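import Vale.Agent.P113.Final

namespace Vale.Agent.Results.P113.Main

open Vale.Agent.P113 Set

/-- Halting detection by particle trajectories of forced Navier-Stokes flows from rest, for every
computable viscosity. -/
theorem result (ν : ℝ) (hν : 0 < ν) (hc : ComputableReal ν) :
    ∃ (a : V3) (O : Set T3) (prog : Machine × List ℕ → Nat.Partrec.Code)
      (f : Machine → List ℕ → ℝ → V3 → V3) (T₀ : ℝ),
      IsOpen O ∧ IsForceCompiler prog f T₀ ∧
      ∀ (M : Machine) (w : List ℕ), ∃ (u : ℝ → V3 → V3) (p : ℝ → V3 → ℝ),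
        Smooth u ∧ SmoothFun p ∧ (∀ T, 0 < T → IsClassical ν T (f M w) u p) ∧
        (∀ T, 0 < T → ∀ u' p', IsClassical ν T (f M w) u' p' →
          ∀ t ∈ Icc 0 T, ∀ x, u' t x = u t x ∧ p' t x = p t x) ∧
        (∃ X, IsTrajectory u a X) ∧
        ∀ X, IsTrajectory u a X → ((∃ t, 0 ≤ t ∧ proj (X t) ∈ O) ↔ HaltsOn M w) :=
  Vale.Agent.P113.main ν hν hc

end Vale.Agent.Results.P113.Main
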